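/-
helper62 — S0466 (row 326, Track D round 2) squad: DEFINITIONS.
Maths: notes/s0466/PROOF.md.  Leaves: Crest/Agent/Helper62/S0466/Blueprint.lean.

Design: ONE ambient pair of types `V` (vertices), `E` (edges).  A graph is a triple
`(ends : E → V × V, A : Finset V, F : Finset E)`: active vertices `A`, active edges `F`.
Deleting edges / vertices and contracting a vertex set never change the types: contraction
composes `ends` with the retraction of `S` onto a representative `r ∈ S`.
-/
import Mathlib

set_option autoImplicit false

namespace Crest.Agent.Helper62.S0466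

variable {V E : Type} [DecidableEq V] [DecidableEq E]

/-- The edges of `F` having `w` as an endpoint. -/
def star (ends : E → V × V) (F : Finset E) (w : V) : Finset E :=
  F.filter fun e => (ends e).1 = w ∨ (ends e).2 = w

/-- The edges of `F` with exactly one endpoint in `U`. -/
def cut (ends : E → V × V) (F : Finset E) (U : Finset V) : Finset E :=
  F.filter fun e => ((ends e).1 ∈ U ∧ (ends e).2 ∉ U) ∨ ((ends e).1 ∉ U ∧ (ends e).2 ∈ U)

/-- Well-formed graph: every active edge joins two distinct active vertices. -/
def WF (ends : E → V × V) (A : Finset V) (F : Finset E) : Prop :=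
  ∀ e ∈ F, (ends e).1 ∈ A ∧ (ends e).2 ∈ A ∧ (ends e).1 ≠ (ends e).2

/-- `M` is a perfect matching of the graph `(A, F)`: a set of active edges covering every active
vertex exactly once. -/
def IsPM (ends : E → V × V) (A : Finset V) (F : Finset E) (M : Finset E) : Prop :=
  M ⊆ F ∧ ∀ w ∈ A, (star ends M w).card = 1

/-- The zero-one vector of an edge set. -/
def ind (M : Finset E) : E → ℝ := fun e => if e ∈ M then 1 else 0

/-- The perfect-matching polytope of `(A, F)`. -/
def PP (ends : E → V × V) (A : Finset V) (F : Finset E) : Set (E → ℝ) :=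
  convexHull ℝ (ind '' {M : Finset E | IsPM ends A F M})

/-- Edmonds' polyhedron of `(A, F)`: zero off `F`, nonnegative, every star sums to `1`, every
odd cut sums to at least `1`. -/
def QQ (ends : E → V × V) (A : Finset V) (F : Finset E) : Set (E → ℝ) :=
  {x | (∀ e, e ∉ F → x e = 0) ∧ (∀ e, 0 ≤ x e) ∧ (∀ w ∈ A, ∑ e ∈ star ends F w, x e = 1) ∧
    ∀ U : Finset V, U ⊆ A → Odd U.card → 1 ≤ ∑ e ∈ cut ends F U, x e}

/-! ### Deleting the two ends of an edge -/

/-- The active vertices after deleting the two ends of `e₀`. -/
def dVerts (ends : E → V × V) (A : Finset V) (e₀ : E) : Finset V :=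
  (A.erase (ends e₀).1).erase (ends e₀).2

/-- The active edges after deleting the two ends of `e₀`: the edges not touching them. -/
def dEdges (ends : E → V × V) (F : Finset E) (e₀ : E) : Finset E :=
  F.filter fun e => (ends e).1 ≠ (ends e₀).1 ∧ (ends e).2 ≠ (ends e₀).1 ∧
    (ends e).1 ≠ (ends e₀).2 ∧ (ends e).2 ≠ (ends e₀).2

/-! ### Contracting a vertex set `S` to a representative `r ∈ S` -/

/-- The retraction collapsing `S` to `r`. -/
def retr (S : Finset V) (r : V) (v : V) : V := if v ∈ S then r else v

/-- Endpoint map of the contracted graph. -/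
def cEnds (ends : E → V × V) (S : Finset V) (r : V) : E → V × V :=
  fun e => (retr S r (ends e).1, retr S r (ends e).2)

/-- Active vertices of the contracted graph. -/
def cVerts (A S : Finset V) (r : V) : Finset V := insert r (A \ S)

/-- Active edges of the contracted graph: the edges inside `S` disappear. -/
def cEdges (ends : E → V × V) (F : Finset E) (S : Finset V) : Finset E :=
  F.filter fun e => ¬ ((ends e).1 ∈ S ∧ (ends e).2 ∈ S)

/-- Restriction of a vector to the contracted graph: zero on the edges inside `S`. -/
def cVec (ends : E → V × V) (S : Finset V) (x : E → ℝ) : E → ℝ :=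
  fun e => if (ends e).1 ∈ S ∧ (ends e).2 ∈ S then 0 else x e

end Crest.Agent.Helper62.S0466
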