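import Mathlib

/-!
# S0466, piece (R): the abstract uncrossing rank lemma

A *cut system* on a finite type `V` with values in a real vector space `W` is a family `T` of
odd subsets of `V`, containing all singletons and closed under complement, together with a map
`c : Finset V → W`, nonzero on `T`, with `c Uᶜ = c U` on `T`, such that two members `S`, `T'`
with `|S ∩ T'|` odd can be uncrossed: `S ∩ T'`, `S ∪ T'` are members and
`c S + c T' = c (S ∩ T') + c (S ∪ T')`.

`CutSystem.finrank_span_le`: if `|V| = 2 m`, `m ≥ 1`, then `dim span (c '' T) ≤ 3 m - 2`.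
-/

set_option autoImplicit false

namespace Crest.Agent.Helper62.S0466

/-- An abstract system of tight odd cuts. -/
structure CutSystem (V : Type) [Fintype V] [DecidableEq V] (W : Type) [AddCommGroup W]
    [Module ℝ W] where
  /-- the family of (tight odd) sets -/
  T : Set (Finset V)
  /-- the cut vector of a set -/
  c : Finset V → W
  odd : ∀ U ∈ T, Odd U.card
  single : ∀ v, {v} ∈ T
  ne_zero : ∀ U ∈ T, c U ≠ 0
  compl_mem : ∀ U ∈ T, Uᶜ ∈ T
  c_compl : ∀ U ∈ T, c Uᶜ = c U
  inter_mem : ∀ S ∈ T, ∀ T' ∈ T, Odd (S ∩ T').card → S ∩ T' ∈ T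
  union_mem : ∀ S ∈ T, ∀ T' ∈ T, Odd (S ∩ T').card → S ∪ T' ∈ T
  uncross : ∀ S ∈ T, ∀ T' ∈ T, Odd (S ∩ T').card → c S + c T' = c (S ∩ T') + c (S ∪ T')

namespace CutSystem

variable {V : Type} [Fintype V] [DecidableEq V] {W : Type} [AddCommGroup W] [Module ℝ W]

/-- The collapse map `V → Option S`: points of `S` are kept, the rest goes to `none`. -/
def collapse (S : Finset V) (v : V) : Option {v // v ∈ S} :=
  if h : v ∈ S then some ⟨v, h⟩ else none

/-- Preimage of a set under the collapse map. -/
def pre (S : Finset V) (U : Finset (Option {v // v ∈ S})) : Finset V :=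
  Finset.univ.filter fun v => collapse S v ∈ U

theorem mem_pre (S : Finset V) (U : Finset (Option {v // v ∈ S})) (v : V) :
    v ∈ pre S U ↔ collapse S v ∈ U := by
  simp [pre]

theorem pre_inter (S : Finset V) (A B : Finset (Option {v // v ∈ S})) :
    pre S (A ∩ B) = pre S A ∩ pre S B := by
  ext v; simp [mem_pre]

theorem pre_union (S : Finset V) (A B : Finset (Option {v // v ∈ S})) :
    pre S (A ∪ B) = pre S A ∪ pre S B := by
  ext v; simp [mem_pre]

theorem pre_compl (S : Finset V) (A : Finset (Option {v // v ∈ S})) :
    pre S Aᶜ = (pre S A)ᶜ := by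
  ext v; simp [mem_pre]

theorem pre_single_none (S : Finset V) : pre S {none} = Sᶜ := by
  ext v
  simp only [mem_pre, Finset.mem_singleton, Finset.mem_compl, collapse]
  by_cases h : v ∈ S <;> simp [h]

theorem pre_single_some (S : Finset V) (w : {v // v ∈ S}) : pre S {some w} = {w.1} := by
  ext v
  simp only [mem_pre, Finset.mem_singleton, collapse]
  by_cases h : v ∈ S
  · simp only [h, dite_true, Option.some.injEq]
    constructor
    · intro h1; rw [← h1]
    · intro h1; exact Subtype.ext h1
  · simp only [h, dite_false]
    constructor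
    · intro h1; cases h1
    · intro h1; exact absurd (h1 ▸ w.2) h

/-- The set of `Option S` corresponding to a subset of `V` (only its part inside `S` matters). -/
def down (S : Finset V) (U : Finset V) : Finset (Option {v // v ∈ S}) :=
  Finset.univ.filter fun o => ∃ w : {v // v ∈ S}, o = some w ∧ w.1 ∈ U

theorem pre_down (S U : Finset V) (hU : U ⊆ S) : pre S (down S U) = U := by
  ext v
  simp only [mem_pre, down, Finset.mem_filter, Finset.mem_univ, true_and, collapse]
  by_cases h : v ∈ S
  · simp only [h, dite_true, Option.some.injEq]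
    constructor
    · rintro ⟨w, hw, hwU⟩; subst hw; exact hwU
    · intro hv; exact ⟨⟨v, h⟩, rfl, hv⟩
  · simp only [h, dite_false]
    constructor
    · rintro ⟨w, hw, -⟩; cases hw
    · intro hv; exact absurd (hU hv) h

/-- Parity is preserved by preimages under the collapse map when `Sᶜ` is odd. -/
theorem odd_card_pre_iff (S : Finset V) (hS : Odd Sᶜ.card) (U : Finset (Option {v // v ∈ S})) :
    Odd (pre S U).card ↔ Odd U.card := by
  have hfib : ∀ o : Option {v // v ∈ S},
      Odd ((pre S U).filter fun v => collapse S v = o).card ∨ o ∉ U := by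
    intro o
    by_cases ho : o ∈ U
    · left
      have : ((pre S U).filter fun v => collapse S v = o) = pre S {o} := by
        ext v
        simp only [Finset.mem_filter, mem_pre, Finset.mem_singleton]
        constructor
        · intro h; exact h.2
        · intro h; exact ⟨h ▸ ho, h⟩
      rw [this]
      cases o with
      | none => rw [pre_single_none]; exact hS
      | some w => rw [pre_single_some]; simp
    · right; exact ho
  have hsum : (pre S U).card = ∑ o ∈ U, ((pre S U).filter fun v => collapse S v = o).card :=
    Finset.card_eq_sum_card_fiberwise fun v hv => (mem_pre S U v).1 hv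
  rw [hsum, Nat.odd_iff, Nat.odd_iff, Finset.sum_nat_mod]
  have : ∑ o ∈ U, ((pre S U).filter fun v => collapse S v = o).card % 2 = ∑ _o ∈ U, 1 := by
    refine Finset.sum_congr rfl fun o ho => ?_
    rcases hfib o with h | h
    · exact Nat.odd_iff.1 h
    · exact absurd ho h
  rw [this]
  simp

/-- The quotient cut system on `Option S`, for a member `S`. -/
def quot (C : CutSystem V W) (S : Finset V) (hS : S ∈ C.T) :
    CutSystem (Option {v // v ∈ S}) W where
  T := {U | Odd U.card ∧ pre S U ∈ C.T}
  c := fun U => C.c (pre S U)
  odd := fun U hU => hU.1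
  single := by
    intro o
    refine ⟨by simp, ?_⟩
    cases o with
    | none => rw [pre_single_none]; exact C.compl_mem S hS
    | some w => rw [pre_single_some]; exact C.single w.1
  ne_zero := fun U hU => C.ne_zero _ hU.2
  compl_mem := by
    intro U hU
    refine ⟨?_, ?_⟩
    · have hcard : Even (Fintype.card (Option {v // v ∈ S})) := by
        have : Fintype.card (Option {v // v ∈ S}) = S.card + 1 := by
          rw [Fintype.card_option, Fintype.card_coe]
        rw [this]
        exact (C.odd S hS).add_one
      have h1 : Uᶜ.card + U.card = Fintype.card (Option {v // v ∈ S}) := by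
        rw [Finset.card_compl]
        exact Nat.sub_add_cancel (Finset.card_le_univ U)
      have h2 : Even (Uᶜ.card + U.card) := h1 ▸ hcard
      by_contra hne
      rw [Nat.not_odd_iff_even] at hne
      have := (Nat.even_add.1 h2).1 hne
      exact (Nat.not_even_iff_odd.2 hU.1) this
    · rw [pre_compl]; exact C.compl_mem _ hU.2
  c_compl := by
    intro U hU
    show C.c (pre S Uᶜ) = C.c (pre S U)
    rw [pre_compl]; exact C.c_compl _ hU.2
  inter_mem := by
    intro A hA B hB hAB
    have hScompl : Odd Sᶜ.card := C.odd _ (C.compl_mem S hS)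
    have hodd : Odd (pre S A ∩ pre S B).card := by
      rw [← pre_inter]; exact (odd_card_pre_iff S hScompl _).2 hAB
    exact ⟨hAB, by rw [pre_inter]; exact C.inter_mem _ hA.2 _ hB.2 hodd⟩
  union_mem := by
    intro A hA B hB hAB
    have hScompl : Odd Sᶜ.card := C.odd _ (C.compl_mem S hS)
    have hodd : Odd (pre S A ∩ pre S B).card := by
      rw [← pre_inter]; exact (odd_card_pre_iff S hScompl _).2 hAB
    refine ⟨?_, by rw [pre_union]; exact C.union_mem _ hA.2 _ hB.2 hodd⟩
    have h := C.odd _ (C.union_mem _ hA.2 _ hB.2 hodd)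
    rw [← pre_union] at h
    exact (odd_card_pre_iff S hScompl _).1 h
  uncross := by
    intro A hA B hB hAB
    have hScompl : Odd Sᶜ.card := C.odd _ (C.compl_mem S hS)
    have hodd : Odd (pre S A ∩ pre S B).card := by
      rw [← pre_inter]; exact (odd_card_pre_iff S hScompl _).2 hAB
    show C.c (pre S A) + C.c (pre S B) = C.c (pre S (A ∩ B)) + C.c (pre S (A ∪ B))
    rw [pre_inter, pre_union]
    exact C.uncross _ hA.2 _ hB.2 hodd

/-- A member of `C.T` inside `S` has its cut vector among those of the quotient system. -/
theorem c_mem_quot (C : CutSystem V W) (S : Finset V)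
    (hS : S ∈ C.T) (U : Finset V) (hU : U ∈ C.T) (hUS : U ⊆ S) :
    C.c U ∈ (C.quot S hS).c '' (C.quot S hS).T := by
  have hScompl : Odd Sᶜ.card := C.odd _ (C.compl_mem S hS)
  refine ⟨down S U, ⟨?_, ?_⟩, ?_⟩
  · rw [← odd_card_pre_iff S hScompl, pre_down S U hUS]; exact C.odd U hU
  · rw [pre_down S U hUS]; exact hU
  · show C.c (pre S (down S U)) = C.c U
    rw [pre_down S U hUS]

/-- The trivial case: every member is a singleton or the complement of one. -/
theorem finrank_span_le_of_trivial [FiniteDimensional ℝ W] (C : CutSystem V W)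
    (h : ∀ U ∈ C.T, U.card = 1 ∨ Uᶜ.card = 1) :
    Module.finrank ℝ (Submodule.span ℝ (C.c '' C.T)) ≤ Fintype.card V := by
  have hsub : Submodule.span ℝ (C.c '' C.T) ≤
      Submodule.span ℝ (Set.range fun v : V => C.c {v}) := by
    apply Submodule.span_le.2
    rintro _ ⟨U, hU, rfl⟩
    apply Submodule.subset_span
    rcases h U hU with h1 | h1
    · obtain ⟨v, rfl⟩ := Finset.card_eq_one.1 h1
      exact ⟨v, rfl⟩
    · obtain ⟨v, hv⟩ := Finset.card_eq_one.1 h1
      refine ⟨v, ?_⟩
      show C.c {v} = C.c U
      rw [← hv]; exact C.c_compl U hU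
  calc Module.finrank ℝ (Submodule.span ℝ (C.c '' C.T))
      ≤ Module.finrank ℝ (Submodule.span ℝ (Set.range fun v : V => C.c {v})) :=
        Submodule.finrank_mono hsub
    _ ≤ Fintype.card V := finrank_range_le_card _

/-- **The uncrossing rank lemma.** -/
theorem finrank_span_le [FiniteDimensional ℝ W] :
    ∀ (m : ℕ), 1 ≤ m → ∀ (V : Type) [Fintype V] [DecidableEq V], Fintype.card V = 2 * m →
      ∀ C : CutSystem V W, Module.finrank ℝ (Submodule.span ℝ (C.c '' C.T)) ≤ 3 * m - 2 := by
  intro m
  induction m using Nat.strong_induction_on with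
  | _ m ih =>
    intro hm V _ _ hV C
    by_cases htriv : ∀ U ∈ C.T, U.card = 1 ∨ Uᶜ.card = 1
    · -- trivial members only
      rcases Nat.lt_or_ge m 2 with hm2 | hm2
      · -- m = 1 : all cut vectors are equal
        have hm1 : m = 1 := by omega
        subst hm1
        have hne : Nonempty V := by
          apply Fintype.card_pos_iff.1; omega
        obtain ⟨a⟩ := hne
        have hsub : Submodule.span ℝ (C.c '' C.T) ≤ Submodule.span ℝ {C.c {a}} := by
          apply Submodule.span_le.2
          rintro _ ⟨U, hU, rfl⟩
          apply Submodule.subset_span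
          show C.c U = C.c {a}
          have hUodd := C.odd U hU
          have hUle : U.card ≤ 2 := by
            have := Finset.card_le_univ U; omega
          have hU1 : U.card = 1 := by
            rcases hUodd with ⟨k, hk⟩; omega
          obtain ⟨v, rfl⟩ := Finset.card_eq_one.1 hU1
          by_cases hva : v = a
          · rw [hva]
          · have hcompl : ({v} : Finset V)ᶜ = {a} := by
              have hc : ({v} : Finset V)ᶜ.card = 1 := by
                rw [Finset.card_compl, Finset.card_singleton]; omega
              obtain ⟨b, hb⟩ := Finset.card_eq_one.1 hc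
              have : a ∈ ({v} : Finset V)ᶜ := by simp [Ne.symm hva]
              rw [hb, Finset.mem_singleton] at this
              rw [hb, this]
            rw [← hcompl]; exact (C.c_compl {v} hU).symm
        calc Module.finrank ℝ (Submodule.span ℝ (C.c '' C.T))
            ≤ Module.finrank ℝ (Submodule.span ℝ {C.c {a}}) := Submodule.finrank_mono hsub
          _ ≤ 1 := by
            have := finrank_span_le_card (R := ℝ) ({C.c {a}} : Set W)
            simpa using this
          _ = 3 * 1 - 2 := by norm_num
      · have := finrank_span_le_of_trivial C htriv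
        omega
    · -- a nontrivial member `S`
      obtain ⟨S, hS, hS1, hSc1⟩ : ∃ S ∈ C.T, S.card ≠ 1 ∧ Sᶜ.card ≠ 1 := by
        by_contra hcon
        apply htriv
        intro U hU
        by_contra h2
        exact hcon ⟨U, hU, not_or.1 h2⟩
      have hSc : Sᶜ ∈ C.T := C.compl_mem S hS
      have hSodd := C.odd S hS
      have hScodd := C.odd _ hSc
      have hcards : S.card + Sᶜ.card = 2 * m := by
        rw [Finset.card_compl, ← hV]
        exact Nat.add_sub_cancel' (Finset.card_le_univ S)
      obtain ⟨k1, hk1⟩ := hSodd
      obtain ⟨k2, hk2⟩ := hScodd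
      have hk1pos : 1 ≤ k1 := by omega
      have hk2pos : 1 ≤ k2 := by omega
      have hcard1 : Fintype.card (Option {v // v ∈ S}) = 2 * (k1 + 1) := by
        have : Fintype.card (Option {v // v ∈ S}) = S.card + 1 := by
          rw [Fintype.card_option, Fintype.card_coe]
        omega
      have hcard2 : Fintype.card (Option {v // v ∈ Sᶜ}) = 2 * (k2 + 1) := by
        have : Fintype.card (Option {v // v ∈ Sᶜ}) = Sᶜ.card + 1 := by
          rw [Fintype.card_option, Fintype.card_coe]
        omega
      have hmsum : (k1 + 1) + (k2 + 1) = m + 1 := by omega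
      have ih1 := ih (k1 + 1) (by omega) (by omega) (Option {v // v ∈ S}) hcard1 (C.quot S hS)
      have ih2 := ih (k2 + 1) (by omega) (by omega) (Option {v // v ∈ Sᶜ}) hcard2 (C.quot Sᶜ hSc)
      set A1 := Submodule.span ℝ ((C.quot S hS).c '' (C.quot S hS).T) with hA1
      set A2 := Submodule.span ℝ ((C.quot Sᶜ hSc).c '' (C.quot Sᶜ hSc).T) with hA2
      have mem1 : ∀ U ∈ C.T, U ⊆ S → C.c U ∈ A1 := fun U hU hUS =>
        Submodule.subset_span (C.c_mem_quot S hS U hU hUS)
      have mem2 : ∀ U ∈ C.T, U ⊆ Sᶜ → C.c U ∈ A2 := fun U hU hUS =>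
        Submodule.subset_span (C.c_mem_quot Sᶜ hSc U hU hUS)
      have hS1mem : C.c S ∈ A1 := mem1 S hS (Finset.Subset.refl S)
      have hS2mem : C.c S ∈ A2 := by
        rw [← C.c_compl S hS]; exact mem2 Sᶜ hSc (Finset.Subset.refl _)
      -- members meeting `S` in an odd set
      have key : ∀ T' ∈ C.T, Odd (S ∩ T').card → C.c T' ∈ A1 ⊔ A2 := by
        intro T' hT' hodd
        have hi := C.inter_mem S hS T' hT' hodd
        have hu := C.union_mem S hS T' hT' hodd
        have hx := C.uncross S hS T' hT' hodd
        have e : C.c T' = C.c (S ∩ T') + C.c (S ∪ T')ᶜ - C.c S := by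
          rw [C.c_compl _ hu, ← hx]; abel
        rw [e]
        apply Submodule.sub_mem
        · apply Submodule.add_mem
          · exact Submodule.mem_sup_left (mem1 _ hi Finset.inter_subset_left)
          · apply Submodule.mem_sup_right
            apply mem2 _ (C.compl_mem _ hu)
            intro v hv
            simp only [Finset.mem_compl, Finset.mem_union, not_or] at hv ⊢
            exact hv.1
        · exact Submodule.mem_sup_left hS1mem
      have hle : Submodule.span ℝ (C.c '' C.T) ≤ A1 ⊔ A2 := by
        apply Submodule.span_le.2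
        rintro _ ⟨T', hT', rfl⟩
        by_cases hodd : Odd (S ∩ T').card
        · exact key T' hT' hodd
        · have hsplit : (S ∩ T'ᶜ).card + (S ∩ T').card = S.card := by
            have h1 : S ∩ T'ᶜ = S \ T' := by
              ext v; simp
            rw [h1, add_comm]
            exact Finset.card_inter_add_card_sdiff S T'
          have hodd' : Odd (S ∩ T'ᶜ).card := by
            rw [Nat.not_odd_iff_even] at hodd
            obtain ⟨j, hj⟩ := hodd
            exact ⟨k1 - j, by omega⟩
          have := key T'ᶜ (C.compl_mem T' hT') hodd'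
          rw [C.c_compl T' hT'] at this
          exact this
      -- the two spans share the nonzero vector `c S`
      have hinf : 1 ≤ Module.finrank ℝ (A1 ⊓ A2 : Submodule ℝ W) := by
        have hmem : C.c S ∈ A1 ⊓ A2 := ⟨hS1mem, hS2mem⟩
        have hne : (⟨C.c S, hmem⟩ : (A1 ⊓ A2 : Submodule ℝ W)) ≠ 0 := by
          intro h0
          exact C.ne_zero S hS (congrArg Subtype.val h0)
        exact Module.finrank_pos_iff_exists_ne_zero.2 ⟨_, hne⟩
      have hdim := Submodule.finrank_sup_add_finrank_inf_eq A1 A2
      have hmono := Submodule.finrank_mono hle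
      omega

end CutSystem

end Crest.Agent.Helper62.S0466
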