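/-
helper62 — S0466 (row 326, Track D round 2) squad: BLUEPRINT.
NEVER import this file from a graded file: every proof here is `sorry`.
It fixes the exact names and signatures of the leaves.  A leaf owner copies the statement(s)
of the leaf into `Crest/Agent/<Seat>/S0466/<File>.lean`, namespace `Crest.Agent.<Seat>.S0466`,
with `import Crest.Agent.Helper62.S0466.Defs` (CS also `...Uncross`), `open Crest.Agent.Helper62.S0466`,
and proves them (no `sorry`, axioms ⊆ propext / Classical.choice / Quot.sound).
Maths of every leaf: notes/s0466/PROOF.md.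
-/
import Crest.Agent.Helper62.S0466.Defs
import Crest.Agent.Helper62.S0466.Uncross

set_option autoImplicit false

namespace Crest.Agent.Helper62.S0466.Blueprint

open Crest.Agent.Helper62.S0466

variable {V E : Type} [DecidableEq V] [DecidableEq E]

/-! ### LAW  (file `Law.lean`) -/

/-- A point of the convex hull of the perfect-matching indicators is a finite convex combination
of them, written with weights on all edge sets. -/
theorem mem_PP_iff [Fintype E] {ends : E → V × V} {A : Finset V} {F : Finset E} {x : E → ℝ} :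
    x ∈ PP ends A F ↔ ∃ p : Finset E → ℝ, (∀ M, 0 ≤ p M) ∧ ∑ M, p M = 1 ∧
      (∀ M, p M ≠ 0 → IsPM ends A F M) ∧ x = ∑ M, p M • ind M := by
  sorry

/-! ### EASY  (file `Easy.lean`) -/

/-- The perfect-matching polytope lies in Edmonds' polyhedron. -/
theorem PP_subset_QQ {ends : E → V × V} {A : Finset V} {F : Finset E} (hWF : WF ends A F) :
    PP ends A F ⊆ QQ ends A F := by
  sorry

/-! ### KM  (file `KM.lean`) -/

/-- Krein–Milman reduction: `QQ` is compact convex, `PP` is closed, so it suffices to treat the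
extreme points of `QQ`. -/
theorem QQ_subset_PP_of_extreme [Fintype E] {ends : E → V × V} {A : Finset V} {F : Finset E}
    (hWF : WF ends A F)
    (h : ∀ x ∈ (QQ ends A F).extremePoints ℝ, x ∈ PP ends A F) :
    QQ ends A F ⊆ PP ends A F := by
  sorry

/-! ### DEL  (file `Del.lean`) -/

/-- Deleting an edge of weight zero. -/
theorem QQ_erase {ends : E → V × V} {A : Finset V} {F : Finset E} {x : E → ℝ}
    (hx : x ∈ QQ ends A F) {e₀ : E} (h0 : x e₀ = 0) : x ∈ QQ ends A (F.erase e₀) := by
  sorry

/-- More edges, bigger polytope. -/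
theorem PP_mono {ends : E → V × V} {A : Finset V} {F F' : Finset E} (hFF : F' ⊆ F) :
    PP ends A F' ⊆ PP ends A F := by
  sorry

/-- Deleting the two ends of an edge keeps the graph well formed. -/
theorem WF_delPair {ends : E → V × V} {A : Finset V} {F : Finset E} (hWF : WF ends A F) (e₀ : E) :
    WF ends (dVerts ends A e₀) (dEdges ends F e₀) := by
  sorry

/-- Deleting the two ends of an edge of weight one. -/
theorem QQ_delPair {ends : E → V × V} {A : Finset V} {F : Finset E} (hWF : WF ends A F)
    {x : E → ℝ} (hx : x ∈ QQ ends A F) {e₀ : E} (he₀ : e₀ ∈ F) (h1 : x e₀ = 1) :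
    x - ind {e₀} ∈ QQ ends (dVerts ends A e₀) (dEdges ends F e₀) := by
  sorry

/-- Adding the edge back to the matchings of the graph without its two ends. -/
theorem PP_delPair_lift {ends : E → V × V} {A : Finset V} {F : Finset E} (hWF : WF ends A F)
    {e₀ : E} (he₀ : e₀ ∈ F) {y : E → ℝ}
    (hy : y ∈ PP ends (dVerts ends A e₀) (dEdges ends F e₀)) :
    y + ind {e₀} ∈ PP ends A F := by
  sorry

/-! ### CON  (file `Con.lean`) -/

/-- Contracting `S` to `r ∈ S` keeps the graph well formed. -/
theorem WF_contract {ends : E → V × V} {A : Finset V} {F : Finset E} (hWF : WF ends A F)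
    {S : Finset V} {r : V} (hr : r ∈ S) :
    WF (cEnds ends S r) (cVerts A S r) (cEdges ends F S) := by
  sorry

/-- Contracting a tight odd set `S` to `r ∈ S` maps `QQ` to the `QQ` of the contracted graph. -/
theorem QQ_contract {ends : E → V × V} {A : Finset V} {F : Finset E} (hWF : WF ends A F)
    {x : E → ℝ} (hx : x ∈ QQ ends A F) {S : Finset V} (hSA : S ⊆ A) {r : V} (hr : r ∈ S)
    (hodd : Odd S.card) (htight : ∑ e ∈ cut ends F S, x e = 1) :
    cVec ends S x ∈ QQ (cEnds ends S r) (cVerts A S r) (cEdges ends F S) := by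
  sorry

/-! ### GLUE  (file `Glue.lean`; may import the landed `Law.lean` of the LAW owner) -/

/-- Gluing: if the restrictions of `x` to the two contractions `G / S` and `G / (A \ S)` are
convex combinations of perfect matchings, so is `x`. -/
theorem glue [Fintype E] {ends : E → V × V} {A : Finset V} {F : Finset E} (hWF : WF ends A F)
    {x : E → ℝ} (hx : x ∈ QQ ends A F) {S : Finset V} (hSA : S ⊆ A) {r r' : V} (hr : r ∈ S)
    (hr' : r' ∈ A \ S) (htight : ∑ e ∈ cut ends F S, x e = 1)
    (h1 : cVec ends S x ∈ PP (cEnds ends S r) (cVerts A S r) (cEdges ends F S))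
    (h2 : cVec ends (A \ S) x ∈
      PP (cEnds ends (A \ S) r') (cVerts A (A \ S) r') (cEdges ends F (A \ S))) :
    x ∈ PP ends A F := by
  sorry

/-! ### PERT  (file `Pert.lean`) -/

/-- Perturbation: a direction `h` vanishing where `x` vanishes and summing to zero over every
tight odd cut keeps `x + t • h` in `QQ` for all small `t`. -/
theorem pert {ends : E → V × V} {A : Finset V} {F : Finset E} (hWF : WF ends A F)
    {x h : E → ℝ} (hx : x ∈ QQ ends A F) (h0 : ∀ e, x e = 0 → h e = 0)
    (hT : ∀ U : Finset V, U ⊆ A → Odd U.card → ∑ e ∈ cut ends F U, x e = 1 →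
      ∑ e ∈ cut ends F U, h e = 0) :
    ∃ ε : ℝ, 0 < ε ∧ ∀ t : ℝ, |t| < ε → x + t • h ∈ QQ ends A F := by
  sorry

/-! ### EXT2b  (file `Ext2b.lean`) -/

/-- Counting: if the star map `h ↦ (∑_{e ∈ star w} h e)_w` is injective on vectors supported on
`F` and all degrees are at least two, then all degrees are exactly two (so `|F| = |A|`) and the
star map is onto. -/
theorem star_map_facts {ends : E → V × V} {A : Finset V} {F : Finset E} (hWF : WF ends A F)
    (hinj : ∀ h : E → ℝ, (∀ e, e ∉ F → h e = 0) →
      (∀ w ∈ A, ∑ e ∈ star ends F w, h e = 0) → h = 0)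
    (hdeg : ∀ w ∈ A, 2 ≤ (star ends F w).card) :
    (∀ w ∈ A, (star ends F w).card = 2) ∧
      ∀ y : V → ℝ, ∃ h : E → ℝ, (∀ e, e ∉ F → h e = 0) ∧
        ∀ w ∈ A, ∑ e ∈ star ends F w, h e = y w := by
  sorry

/-! ### EXT2c  (file `Ext2c.lean`) -/

/-- A point of `QQ`, positive on `F`, in a graph with all degrees two, with bijective star map
and without nontrivial tight odd set: impossible. -/
theorem false_of_two_regular {ends : E → V × V} {A : Finset V} {F : Finset E} (hWF : WF ends A F)
    {x : E → ℝ} (hx : x ∈ QQ ends A F) (hpos : ∀ e ∈ F, 0 < x e) (hA : A.Nonempty)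
    (hdeg2 : ∀ w ∈ A, (star ends F w).card = 2)
    (hinj : ∀ h : E → ℝ, (∀ e, e ∉ F → h e = 0) →
      (∀ w ∈ A, ∑ e ∈ star ends F w, h e = 0) → h = 0)
    (hsurj : ∀ y : V → ℝ, ∃ h : E → ℝ, (∀ e, e ∉ F → h e = 0) ∧
      ∀ w ∈ A, ∑ e ∈ star ends F w, h e = y w)
    (hnt : ∀ S : Finset V, S ⊆ A → Odd S.card → 3 ≤ S.card → S.card + 3 ≤ A.card →
      ∑ e ∈ cut ends F S, x e ≠ 1) :
    False := by
  sorry

/-! ### CS  (file `CS.lean`; imports `Helper62.S0466.Uncross`) -/

/-- The tight odd sets of a point of `QQ` of the full graph form a cut system, with cut vectors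
the indicators of the positive part of the cut. -/
theorem exists_tightSystem [Fintype V] [Fintype E] {ends : E → V × V}
    (hWF : WF ends Finset.univ Finset.univ) {x : E → ℝ}
    (hx : x ∈ QQ ends Finset.univ Finset.univ) :
    ∃ C : CutSystem V (E → ℝ),
      C.T = {U : Finset V | Odd U.card ∧ ∑ e ∈ cut ends Finset.univ U, x e = 1} ∧
      C.c = fun U e => if e ∈ cut ends Finset.univ U ∧ 0 < x e then 1 else 0 := by
  sorry

/-! ### DIM  (file `Dim.lean`) -/

/-- Rank–nullity: the vectors supported on `P` and orthogonal to all of `Cs` span a space of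
dimension at least `|P| - dim span Cs`; if they all lie in `D`, so does `span D`. -/
theorem dim_bound [Fintype E] (P : E → Prop) [DecidablePred P] (Cs D : Set (E → ℝ))
    (hD : ∀ h : E → ℝ, (∀ e, ¬ P e → h e = 0) → (∀ c ∈ Cs, ∑ e, c e * h e = 0) → h ∈ D) :
    ((Finset.univ.filter P).card : ℤ) - (Module.finrank ℝ (Submodule.span ℝ Cs) : ℤ)
      ≤ (Module.finrank ℝ (Submodule.span ℝ D) : ℤ) := by
  sorry

end Crest.Agent.Helper62.S0466.Blueprint
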