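/-
helper62 — S0466 squad, leaf DIM: a rank–nullity bound.
-/
import Mathlib

set_option autoImplicit false

namespace Crest.Agent.Helper62.S0466

open Module

/-- Rank–nullity: the vectors supported on `P` and orthogonal to all of `Cs` span a space of
dimension at least `|P| - dim span Cs`; if they all lie in `D`, so does `span D`. -/
theorem dim_bound {E : Type} [DecidableEq E] [Fintype E] (P : E → Prop) [DecidablePred P]
    (Cs D : Set (E → ℝ))
    (hD : ∀ h : E → ℝ, (∀ e, ¬ P e → h e = 0) → (∀ c ∈ Cs, ∑ e, c e * h e = 0) → h ∈ D) :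
    ((Finset.univ.filter P).card : ℤ) - (Module.finrank ℝ (Submodule.span ℝ Cs) : ℤ)
      ≤ (Module.finrank ℝ (Submodule.span ℝ D) : ℤ) := by
  classical
  -- extension by zero
  let ext : ({e // P e} → ℝ) →ₗ[ℝ] (E → ℝ) :=
    { toFun := fun g e => if h : P e then g ⟨e, h⟩ else 0
      map_add' := by
        intro g g'
        funext e
        by_cases h : P e <;> simp [h]
      map_smul' := by
        intro a g
        funext e
        by_cases h : P e <;> simp [h] }
  have hext_apply : ∀ g e, ext g e = if h : P e then g ⟨e, h⟩ else 0 := fun g e => rfl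
  have hext_inj : Function.Injective ext := by
    intro g g' hgg
    funext ⟨e, he⟩
    have := congrFun hgg e
    rw [hext_apply, hext_apply, dif_pos he, dif_pos he] at this
    exact this
  let Ψ : (E → ℝ) →ₗ[ℝ] Module.Dual ℝ (E → ℝ) :=
    Fintype.linearCombination ℝ (fun e => (LinearMap.proj e : (E → ℝ) →ₗ[ℝ] ℝ))
  have hΨ : ∀ h c, Ψ h c = ∑ e, c e * h e := by
    intro h c
    simp only [Ψ, Fintype.linearCombination_apply, LinearMap.coe_sum, Finset.sum_apply,
      LinearMap.smul_apply, LinearMap.proj_apply, smul_eq_mul]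
    exact Finset.sum_congr rfl fun e _ => mul_comm _ _
  let φ : ({e // P e} → ℝ) →ₗ[ℝ] (Submodule.span ℝ Cs →ₗ[ℝ] ℝ) :=
    (LinearMap.domRestrict' (Submodule.span ℝ Cs)).comp (Ψ.comp ext)
  have hφ : ∀ g (c : Submodule.span ℝ Cs), φ g c = ∑ e, (c : E → ℝ) e * ext g e := by
    intro g c
    simp only [φ, LinearMap.comp_apply, LinearMap.domRestrict'_apply]
    exact hΨ _ _
  have hker : (LinearMap.ker φ).map ext ≤ Submodule.span ℝ D := by
    rintro _ ⟨g, hg, rfl⟩
    apply Submodule.subset_span
    apply hD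
    · intro e he
      rw [hext_apply, dif_neg he]
    · intro c hc
      have h0 : φ g = 0 := hg
      have := hφ g ⟨c, Submodule.subset_span hc⟩
      rw [h0] at this
      simpa using this.symm
  have h1 : finrank ℝ (LinearMap.ker φ) ≤ finrank ℝ (Submodule.span ℝ D) := by
    rw [(Submodule.equivMapOfInjective ext hext_inj (LinearMap.ker φ)).finrank_eq]
    exact Submodule.finrank_mono hker
  have h2 := LinearMap.finrank_range_add_finrank_ker φ
  have h3 : finrank ℝ (LinearMap.range φ) ≤ finrank ℝ (Submodule.span ℝ Cs) := by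
    calc finrank ℝ (LinearMap.range φ)
        ≤ finrank ℝ (Module.Dual ℝ (Submodule.span ℝ Cs)) := Submodule.finrank_le _
      _ = finrank ℝ (Submodule.span ℝ Cs) := Subspace.dual_finrank_eq
  have h4 : finrank ℝ ({e // P e} → ℝ) = (Finset.univ.filter P).card := by
    rw [Module.finrank_fintype_fun_eq_card, Fintype.card_subtype]
  rw [h4] at h2
  have : ((Finset.univ.filter P).card : ℤ) =
      (finrank ℝ (LinearMap.range φ) : ℤ) + (finrank ℝ (LinearMap.ker φ) : ℤ) := by
    exact_mod_cast h2.symm
  have h1' : (finrank ℝ (LinearMap.ker φ) : ℤ) ≤ (finrank ℝ (Submodule.span ℝ D) : ℤ) := by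
    exact_mod_cast h1
  have h3' : (finrank ℝ (LinearMap.range φ) : ℤ) ≤ (finrank ℝ (Submodule.span ℝ Cs) : ℤ) := by
    exact_mod_cast h3
  linarith

end Crest.Agent.Helper62.S0466
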