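/-
helper62 — S0466 squad: ASSEMBLY DRAFT compiled against the Blueprint (never graded).
-/
import Crest.Agent.Helper62.S0466.Blueprint
import Crest.Prelude.Def_MatchingPolytope

set_option autoImplicit false

namespace Crest.Agent.Helper62.S0466.FinalDraft

open Crest.Agent.Helper62.S0466 Crest.Agent.Helper62.S0466.Blueprint

variable {V E : Type} [DecidableEq V] [DecidableEq E]

theorem mem_star {ends : E → V × V} {F : Finset E} {w : V} {e : E} :
    e ∈ star ends F w ↔ e ∈ F ∧ ((ends e).1 = w ∨ (ends e).2 = w) := by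
  simp [star]

theorem mem_cut {ends : E → V × V} {F : Finset E} {U : Finset V} {e : E} :
    e ∈ cut ends F U ↔ e ∈ F ∧ (((ends e).1 ∈ U ∧ (ends e).2 ∉ U) ∨
      ((ends e).1 ∉ U ∧ (ends e).2 ∈ U)) := by
  simp [cut]

theorem cut_singleton {ends : E → V × V} {A : Finset V} {F : Finset E} (hWF : WF ends A F)
    (w : V) : cut ends F {w} = star ends F w := by
  ext e
  simp only [mem_cut, mem_star, Finset.mem_singleton]
  constructor
  · rintro ⟨he, h | h⟩
    · exact ⟨he, Or.inl h.1⟩
    · exact ⟨he, Or.inr h.2⟩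
  · rintro ⟨he, h | h⟩
    · refine ⟨he, Or.inl ⟨h, fun h2 => (hWF e he).2.2 (h.trans h2.symm)⟩⟩
    · refine ⟨he, Or.inr ⟨fun h2 => (hWF e he).2.2 (h2.trans h.symm), h⟩⟩

theorem cut_sdiff {ends : E → V × V} {A : Finset V} {F : Finset E} (hWF : WF ends A F)
    (U : Finset V) : cut ends F (A \ U) = cut ends F U := by
  ext e
  simp only [mem_cut, Finset.mem_sdiff]
  constructor
  · rintro ⟨he, h | h⟩
    · have := (hWF e he).2.1
      refine ⟨he, Or.inr ⟨h.1.2, ?_⟩⟩
      by_contra h2
      exact h.2 ⟨this, h2⟩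
    · have := (hWF e he).1
      refine ⟨he, Or.inl ⟨?_, h.2.2⟩⟩
      by_contra h2
      exact h.1 ⟨this, h2⟩
  · rintro ⟨he, h | h⟩
    · exact ⟨he, Or.inr ⟨fun h2 => h2.2 h.1, (hWF e he).2.1, h.2⟩⟩
    · exact ⟨he, Or.inl ⟨⟨(hWF e he).1, h.1⟩, fun h2 => h2.2 h.2⟩⟩

theorem even_card_of_mem_QQ {ends : E → V × V} {A : Finset V} {F : Finset E} (hWF : WF ends A F)
    {x : E → ℝ} (hx : x ∈ QQ ends A F) : Even A.card := by
  by_contra hodd
  rw [Nat.not_even_iff_odd] at hodd
  have h := hx.2.2.2 A (Finset.Subset.refl A) hodd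
  have hempty : cut ends F A = ∅ := by
    ext e
    simp only [mem_cut, Finset.notMem_empty, iff_false, not_and]
    intro he
    have := hWF e he
    tauto
  rw [hempty, Finset.sum_empty] at h
  linarith

theorem le_one_of_mem_QQ {ends : E → V × V} {A : Finset V} {F : Finset E} (hWF : WF ends A F)
    {x : E → ℝ} (hx : x ∈ QQ ends A F) {e : E} (he : e ∈ F) : x e ≤ 1 := by
  have h := hx.2.2.1 _ (hWF e he).1
  rw [← h]
  exact Finset.single_le_sum (f := x) (fun i _ => hx.2.1 i) (mem_star.2 ⟨he, Or.inl rfl⟩)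

/-- EXT1: at an extreme point, an admissible direction vanishes. -/
theorem ext1 {ends : E → V × V} {A : Finset V} {F : Finset E} (hWF : WF ends A F)
    {x h : E → ℝ} (hx : x ∈ (QQ ends A F).extremePoints ℝ) (h0 : ∀ e, x e = 0 → h e = 0)
    (hT : ∀ U : Finset V, U ⊆ A → Odd U.card → ∑ e ∈ cut ends F U, x e = 1 →
      ∑ e ∈ cut ends F U, h e = 0) : h = 0 := by
  obtain ⟨ε, hε, hmem⟩ := pert hWF hx.1 h0 hT
  have h1 := hmem (ε / 2) (by rw [abs_of_pos (by linarith)]; linarith)
  have h2 := hmem (-(ε / 2)) (by rw [abs_neg, abs_of_pos (by linarith)]; linarith)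
  have hseg : x ∈ openSegment ℝ (x + (ε / 2) • h) (x + (-(ε / 2)) • h) := by
    refine ⟨1 / 2, 1 / 2, by norm_num, by norm_num, by norm_num, ?_⟩
    ext e
    simp only [Pi.add_apply, Pi.smul_apply, smul_eq_mul]
    ring
  have := (mem_extremePoints.1 hx).2 _ h1 _ h2 hseg
  have h3 : (ε / 2) • h = 0 := by
    have := this.1
    simpa using this
  rcases smul_eq_zero.1 h3 with h4 | h4
  · linarith
  · exact h4

/-- EXT2: at an extreme point with all active coordinates strictly between 0 and 1 there is a
nontrivial tight odd set. -/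
theorem ext2 {ends : E → V × V} {A : Finset V} {F : Finset E} (hWF : WF ends A F)
    {x : E → ℝ} (hx : x ∈ (QQ ends A F).extremePoints ℝ) (hA : A.Nonempty)
    (hpos : ∀ e ∈ F, 0 < x e) (hlt : ∀ e ∈ F, x e < 1) :
    ∃ S : Finset V, S ⊆ A ∧ Odd S.card ∧ 3 ≤ S.card ∧ S.card + 3 ≤ A.card ∧
      ∑ e ∈ cut ends F S, x e = 1 := by
  by_contra hno
  have hnt : ∀ S : Finset V, S ⊆ A → Odd S.card → 3 ≤ S.card → S.card + 3 ≤ A.card →
      ∑ e ∈ cut ends F S, x e ≠ 1 := by
    intro S h1 h2 h3 h4 h5
    exact hno ⟨S, h1, h2, h3, h4, h5⟩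
  have hxQ := hx.1
  have heven := even_card_of_mem_QQ hWF hxQ
  have hinj : ∀ h : E → ℝ, (∀ e, e ∉ F → h e = 0) →
      (∀ w ∈ A, ∑ e ∈ star ends F w, h e = 0) → h = 0 := by
    intro h hF hstar
    apply ext1 hWF hx
    · intro e he
      by_cases heF : e ∈ F
      · exact absurd he (hpos e heF).ne'
      · exact hF e heF
    · intro U hUA hUodd hUt
      have hcases : U.card = 1 ∨ U.card + 1 = A.card := by
        have hle := Finset.card_le_card hUA
        by_contra hcon
        push_neg at hcon
        obtain ⟨k, hk⟩ := hUodd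
        obtain ⟨l, hl⟩ := heven
        have h3 : 3 ≤ U.card := by omega
        have h3' : U.card + 3 ≤ A.card := by omega
        exact hnt U hUA ⟨k, hk⟩ h3 h3' hUt
      rcases hcases with h1 | h1
      · obtain ⟨w, rfl⟩ := Finset.card_eq_one.1 h1
        rw [cut_singleton hWF]
        exact hstar w (hUA (Finset.mem_singleton_self w))
      · have hc : (A \ U).card = 1 := by
          rw [Finset.card_sdiff_of_subset hUA]; omega
        obtain ⟨w, hw⟩ := Finset.card_eq_one.1 hc
        have hwA : w ∈ A := by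
          have : w ∈ A \ U := by rw [hw]; exact Finset.mem_singleton_self w
          exact (Finset.mem_sdiff.1 this).1
        rw [← cut_sdiff hWF U, hw, cut_singleton hWF]
        exact hstar w hwA
  have hdeg : ∀ w ∈ A, 2 ≤ (star ends F w).card := by
    intro w hw
    by_contra hcon
    have hsum := hxQ.2.2.1 w hw
    have hc : (star ends F w).card = 0 ∨ (star ends F w).card = 1 := by omega
    rcases hc with hc | hc
    · rw [Finset.card_eq_zero.1 hc, Finset.sum_empty] at hsum
      norm_num at hsum
    · obtain ⟨e, he⟩ := Finset.card_eq_one.1 hc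
      rw [he, Finset.sum_singleton] at hsum
      have heF : e ∈ F := by
        have : e ∈ star ends F w := by rw [he]; exact Finset.mem_singleton_self e
        exact (mem_star.1 this).1
      exact absurd hsum (hlt e heF).ne
  obtain ⟨hdeg2, hsurj⟩ := star_map_facts hWF hinj hdeg
  exact false_of_two_regular hWF hxQ hpos hA hdeg2 hinj hsurj hnt

theorem WF_mono {ends : E → V × V} {A : Finset V} {F F' : Finset E} (hWF : WF ends A F)
    (h : F' ⊆ F) : WF ends A F' := fun e he => hWF e (h he)

theorem card_dVerts {ends : E → V × V} {A : Finset V} {F : Finset E} (hWF : WF ends A F)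
    {e₀ : E} (he₀ : e₀ ∈ F) : (dVerts ends A e₀).card + 2 = A.card := by
  obtain ⟨h1, h2, h3⟩ := hWF e₀ he₀
  unfold dVerts
  rw [Finset.card_erase_of_mem (Finset.mem_erase.2 ⟨fun h => h3 h.symm, h2⟩),
    Finset.card_erase_of_mem h1]
  have : 2 ≤ A.card := by
    have := Finset.card_le_card (s := {(ends e₀).1, (ends e₀).2}) (t := A)
      (by intro v hv; simp only [Finset.mem_insert, Finset.mem_singleton] at hv
          rcases hv with rfl | rfl <;> assumption)
    rwa [Finset.card_pair h3] at this
  omega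

theorem card_cVerts {A S : Finset V} (hSA : S ⊆ A) {r : V} (hr : r ∈ S) :
    (cVerts A S r).card + S.card = A.card + 1 := by
  unfold cVerts
  rw [Finset.card_insert_of_notMem (fun h => (Finset.mem_sdiff.1 h).2 hr),
    Finset.card_sdiff_of_subset hSA]
  have := Finset.card_le_card hSA
  omega

theorem card_cEdges_le (ends : E → V × V) (F : Finset E) (S : Finset V) :
    (cEdges ends F S).card ≤ F.card := Finset.card_filter_le _ _

theorem card_dEdges_le (ends : E → V × V) (F : Finset E) (e₀ : E) :
    (dEdges ends F e₀).card ≤ F.card := Finset.card_filter_le _ _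

/-- **Edmonds' perfect matching polytope theorem** (hard direction). -/
theorem QQ_subset_PP_aux [Fintype E] : ∀ n : ℕ, ∀ (ends : E → V × V) (A : Finset V)
    (F : Finset E), WF ends A F → A.card + F.card ≤ n → QQ ends A F ⊆ PP ends A F := by
  intro n
  induction n with
  | zero =>
    intro ends A F hWF hn x hx
    have hA : A = ∅ := Finset.card_eq_zero.1 (by omega)
    have hF : F = ∅ := Finset.card_eq_zero.1 (by omega)
    subst hA hF
    have hx0 : x = ind (∅ : Finset E) := by
      ext e
      simp [ind, hx.1 e]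
    rw [hx0]
    exact subset_convexHull ℝ _ ⟨∅, ⟨Finset.Subset.refl _, by simp⟩, rfl⟩
  | succ n ih =>
    intro ends A F hWF hn
    by_cases hA : A = ∅
    · intro x hx
      have hF : F = ∅ := by
        apply Finset.eq_empty_of_forall_notMem
        intro e he
        have := (hWF e he).1
        rw [hA] at this
        exact absurd this (Finset.notMem_empty _)
      subst hA hF
      have hx0 : x = ind (∅ : Finset E) := by
        ext e
        simp [ind, hx.1 e]
      rw [hx0]
      exact subset_convexHull ℝ _ ⟨∅, ⟨Finset.Subset.refl _, by simp⟩, rfl⟩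
    · apply QQ_subset_PP_of_extreme hWF
      intro x hx
      have hxQ := hx.1
      by_cases h0 : ∃ e ∈ F, x e = 0
      · obtain ⟨e, he, hxe⟩ := h0
        have hc : A.card + (F.erase e).card ≤ n := by
          rw [Finset.card_erase_of_mem he]
          have := Finset.card_pos.2 ⟨e, he⟩
          omega
        exact PP_mono (Finset.erase_subset e F)
          (ih ends A (F.erase e) (WF_mono hWF (Finset.erase_subset e F)) hc (QQ_erase hxQ hxe))
      by_cases h1 : ∃ e ∈ F, x e = 1
      · obtain ⟨e, he, hxe⟩ := h1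
        have hc : (dVerts ends A e).card + (dEdges ends F e).card ≤ n := by
          have := card_dVerts hWF he
          have := card_dEdges_le ends F e
          omega
        have := PP_delPair_lift hWF he
          (ih ends (dVerts ends A e) (dEdges ends F e) (WF_delPair hWF e) hc
            (QQ_delPair hWF hxQ he hxe))
        simpa using this
      push_neg at h0 h1
      have hpos : ∀ e ∈ F, 0 < x e := fun e he =>
        lt_of_le_of_ne (hxQ.2.1 e) (Ne.symm (h0 e he))
      have hlt : ∀ e ∈ F, x e < 1 := fun e he =>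
        lt_of_le_of_ne (le_one_of_mem_QQ hWF hxQ he) (h1 e he)
      obtain ⟨S, hSA, hodd, h3, h3', htight⟩ :=
        ext2 hWF hx (Finset.nonempty_iff_ne_empty.2 hA) hpos hlt
      have heven := even_card_of_mem_QQ hWF hxQ
      obtain ⟨r, hr⟩ : S.Nonempty := Finset.card_pos.1 (by omega)
      have hcS : (A \ S).card = A.card - S.card := Finset.card_sdiff_of_subset hSA
      obtain ⟨r', hr'⟩ : (A \ S).Nonempty := Finset.card_pos.1 (by omega)
      have e1 := ih (cEnds ends S r) (cVerts A S r) (cEdges ends F S) (WF_contract hWF hr)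
        (by
          have := card_cVerts hSA hr
          have := card_cEdges_le ends F S
          omega)
        (QQ_contract hWF hxQ hSA hr hodd htight)
      have hodd' : Odd (A \ S).card := by
        rw [hcS]
        obtain ⟨k, hk⟩ := hodd
        obtain ⟨l, hl⟩ := heven
        exact ⟨l - k - 1, by omega⟩
      have e2 := ih (cEnds ends (A \ S) r') (cVerts A (A \ S) r') (cEdges ends F (A \ S))
        (WF_contract hWF hr')
        (by
          have := card_cVerts (Finset.sdiff_subset (s := A) (t := S)) hr'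
          have := card_cEdges_le ends F (A \ S)
          omega)
        (QQ_contract hWF hxQ Finset.sdiff_subset hr' hodd' (by rw [cut_sdiff hWF]; exact htight))
      exact glue hWF hxQ hSA hr hr' htight e1 e2

theorem QQ_subset_PP [Fintype E] {ends : E → V × V} {A : Finset V} {F : Finset E}
    (hWF : WF ends A F) : QQ ends A F ⊆ PP ends A F :=
  QQ_subset_PP_aux _ ends A F hWF le_rfl

open Crest.Matchings in
theorem pmPolytope_eq {v k : ℕ} (ends : Fin k → Fin v × Fin v) :
    pmPolytope ends = PP ends Finset.univ Finset.univ := by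
  unfold pmPolytope PP
  congr 1
  ext y
  constructor
  · rintro ⟨M, hM, rfl⟩
    exact ⟨M, ⟨Finset.subset_univ _, fun w _ => hM w⟩, rfl⟩
  · rintro ⟨M, hM, rfl⟩
    exact ⟨M, fun w => hM.2 w (Finset.mem_univ w), rfl⟩

open Crest.Matchings in
theorem final (m : ℕ) (hm : 1 ≤ m) (k : ℕ)
    (ends : Fin k → Fin (2 * m) × Fin (2 * m)) (hends : ∀ e, (ends e).1 ≠ (ends e).2)
    (x : Fin k → ℝ) (hx : x ∈ pmPolytope ends) :
    ((Finset.univ.filter fun e => 0 < x e).card : ℤ) - (pmFaceDim ends x : ℤ) ≤ 3 * (m : ℤ) - 2 := by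
  have hWF : WF ends Finset.univ Finset.univ := fun e _ =>
    ⟨Finset.mem_univ _, Finset.mem_univ _, hends e⟩
  have hxQ : x ∈ QQ ends Finset.univ Finset.univ := by
    rw [pmPolytope_eq] at hx
    exact PP_subset_QQ hWF hx
  obtain ⟨C, hCT, hCc⟩ := exists_tightSystem hWF hxQ
  have hrank := CutSystem.finrank_span_le (W := Fin k → ℝ) m hm (Fin (2 * m)) (by simp) C
  have hD : ∀ h : Fin k → ℝ, (∀ e, ¬ (0 < x e) → h e = 0) →
      (∀ c ∈ C.c '' C.T, ∑ e, c e * h e = 0) → h ∈ pmDirections ends x := by
    intro h hsupp horth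
    have h0 : ∀ e, x e = 0 → h e = 0 := fun e he => hsupp e (by rw [he]; exact lt_irrefl 0)
    have hT : ∀ U : Finset (Fin (2 * m)), U ⊆ Finset.univ → Odd U.card →
        ∑ e ∈ cut ends Finset.univ U, x e = 1 → ∑ e ∈ cut ends Finset.univ U, h e = 0 := by
      intro U _ hUodd hUt
      have hU : U ∈ C.T := by rw [hCT]; exact ⟨hUodd, hUt⟩
      have := horth (C.c U) ⟨U, hU, rfl⟩
      rw [← this, hCc]
      show _ = ∑ e, (if e ∈ cut ends Finset.univ U ∧ 0 < x e then (1 : ℝ) else 0) * h e
      rw [← Finset.sum_filter_add_sum_filter_not Finset.univ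
        (fun e => e ∈ cut ends Finset.univ U)]
      have hz : ∑ e ∈ Finset.univ.filter (fun e => ¬ e ∈ cut ends Finset.univ U),
          (if e ∈ cut ends Finset.univ U ∧ 0 < x e then (1 : ℝ) else 0) * h e = 0 := by
        apply Finset.sum_eq_zero
        intro e he
        rw [Finset.mem_filter] at he
        rw [if_neg (fun hh => he.2 hh.1), zero_mul]
      rw [hz, add_zero]
      have hfe : Finset.univ.filter (fun e => e ∈ cut ends Finset.univ U)
          = cut ends Finset.univ U := by
        ext e; simp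
      rw [hfe]
      apply Finset.sum_congr rfl
      intro e he
      by_cases hxe : 0 < x e
      · rw [if_pos ⟨he, hxe⟩, one_mul]
      · rw [if_neg (fun hh => hxe hh.2), zero_mul, hsupp e hxe]
    obtain ⟨ε, hε, hmem⟩ := pert hWF hxQ h0 hT
    refine ⟨ε, hε, fun t ht => ?_⟩
    rw [pmPolytope_eq]
    exact QQ_subset_PP hWF (hmem t ht)
  have hdim := dim_bound (fun e => 0 < x e) (C.c '' C.T) (pmDirections ends x) hD
  unfold pmFaceDim
  have : ((Module.finrank ℝ (Submodule.span ℝ (C.c '' C.T)) : ℕ) : ℤ) ≤ 3 * (m : ℤ) - 2 := by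
    have h2 : ((3 * m - 2 : ℕ) : ℤ) = 3 * (m : ℤ) - 2 := by omega
    rw [← h2]
    exact_mod_cast hrank
  linarith

end Crest.Agent.Helper62.S0466.FinalDraft
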